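import Mathlib

set_option autoImplicit false
open Finset Matrix

namespace Crest.Agent.R57

variable {V : Type*} [Fintype V] [DecidableEq V]

/-- `hmin`: no nonnegative vector with a zero coordinate is strictly positive under `C` on its
support (vertex-minimality).  Then `C` is monotone. -/
theorem mono27 [Nonempty V] (C : Matrix V V ℝ) (w : V → ℝ) (hw : ∀ v, 0 < w v)
    (hCw : ∀ v, 0 < C.mulVec w v)
    (hmin : ∀ u : V → ℝ, (∀ v, 0 ≤ u v) → (∃ v, u v = 0) → (∃ v, u v ≠ 0) →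
      ∃ v, u v ≠ 0 ∧ C.mulVec u v ≤ 0)
    (x : V → ℝ) (hx : ∀ v, 0 ≤ C.mulVec x v) : ∀ v, 0 ≤ x v := by
  by_contra hneg
  push Not at hneg
  obtain ⟨v0, hv0⟩ := hneg
  obtain ⟨v1, -, hv1⟩ := Finset.exists_min_image (univ : Finset V) (fun v => x v / w v)
    univ_nonempty
  set m : ℝ := x v1 / w v1 with hm
  have hm0 : m < 0 := lt_of_le_of_lt (hv1 v0 (mem_univ _)) (div_neg_of_neg_of_pos hv0 (hw v0))
  set u : V → ℝ := x + (-m) • w with hu
  have hu0 : ∀ v, 0 ≤ u v := by
    intro v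
    have h1 := hv1 v (mem_univ _)
    rw [le_div_iff₀ (hw v)] at h1
    simp only [hu, Pi.add_apply, Pi.smul_apply, smul_eq_mul]
    linarith
  have hu1 : u v1 = 0 := by
    have := (hw v1).ne'
    simp only [hu, hm, Pi.add_apply, Pi.smul_apply, smul_eq_mul]
    field_simp
    ring
  have hCu : ∀ v, 0 < C.mulVec u v := by
    intro v
    rw [hu, Matrix.mulVec_add, Matrix.mulVec_smul]
    simp only [Pi.add_apply, Pi.smul_apply, smul_eq_mul]
    have := mul_pos (neg_pos.2 hm0) (hCw v)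
    linarith [hx v]
  have hne : ∃ v, u v ≠ 0 := by
    by_contra h
    push Not at h
    have h0 : u = 0 := funext h
    have := hCu v1
    rw [h0, Matrix.mulVec_zero] at this
    exact lt_irrefl _ this
  obtain ⟨v, -, hv⟩ := hmin u hu0 ⟨v1, hu1⟩ hne
  exact absurd (hCu v) (not_lt.2 hv)

theorem inv27 (C : Matrix V V ℝ)
    (hmono : ∀ x : V → ℝ, (∀ v, 0 ≤ C.mulVec x v) → ∀ v, 0 ≤ x v) :
    ∃ H : Matrix V V ℝ, C * H = 1 ∧ H * C = 1 ∧ ∀ a b, 0 ≤ H a b := by
  have hinj : Function.Injective C.mulVec := by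
    intro x y hxy
    have h1 := hmono (x - y) (fun v => by rw [Matrix.mulVec_sub, hxy, sub_self]; rfl)
    have h2 := hmono (y - x) (fun v => by rw [Matrix.mulVec_sub, hxy, sub_self]; rfl)
    funext v
    have a := h1 v
    have b := h2 v
    simp only [Pi.sub_apply] at a b
    linarith
  have hu : IsUnit C := Matrix.mulVec_injective_iff_isUnit.1 hinj
  have hd : IsUnit C.det := (Matrix.isUnit_iff_isUnit_det C).1 hu
  refine ⟨C⁻¹, Matrix.mul_nonsing_inv C hd, Matrix.nonsing_inv_mul C hd, fun a b => ?_⟩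
  have := hmono (C⁻¹.mulVec (Pi.single b 1)) (fun v => by
    rw [Matrix.mulVec_mulVec, Matrix.mul_nonsing_inv C hd, Matrix.one_mulVec]
    by_cases h : v = b
    · subst h; simp
    · simp [h]) a
  simpa using this

/-- the reverse weight -/
theorem left27 (C : Matrix V V ℝ)
    (hmono : ∀ x : V → ℝ, (∀ v, 0 ≤ C.mulVec x v) → ∀ v, 0 ≤ x v) :
    ∃ p : V → ℝ, (∀ v, 0 < p v) ∧ ∀ v, Matrix.vecMul p C v = 1 := by
  obtain ⟨H, h1, h2, h3⟩ := inv27 C hmono
  refine ⟨Matrix.vecMul (fun _ => 1) H, fun v => ?_, fun v => ?_⟩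
  · have hs : Matrix.vecMul (fun _ => (1 : ℝ)) H v = ∑ a, H a v := by
      simp [Matrix.vecMul, dotProduct]
    rw [hs]
    rcases (Finset.sum_nonneg (fun a (_ : a ∈ univ) => h3 a v)).lt_or_eq with h | h
    · exact h
    · exfalso
      have hz : ∀ a, H a v = 0 := fun a =>
        (Finset.sum_eq_zero_iff_of_nonneg (fun a _ => h3 a v)).1 h.symm a (mem_univ _)
      have := congrFun (congrFun h1 v) v
      simp [Matrix.mul_apply, hz] at this
  · rw [Matrix.vecMul_vecMul, h2, Matrix.vecMul_one]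

end Crest.Agent.R57
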