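import Mathlib

set_option autoImplicit false

open Finset

namespace Crest.Agent.R57

open Classical

variable {V : Type*} [Fintype V]

/-- out-neighbours of a set -/
noncomputable def P (A : V → V → Prop) (C : Finset V) : Finset V :=
  univ.filter fun x => ∃ c ∈ C, A c x

noncomputable def N1 (A : V → V → Prop) (S : Finset V) : Finset V := P A S \ S

noncomputable def N2 (A : V → V → Prop) (S : Finset V) : Finset V :=
  P A (N1 A S) \ (S ∪ N1 A S)

/-- every vertex is deficient -/
def Bad (A : V → V → Prop) (w : V → ℝ) : Prop :=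
  ∀ v, ∑ x ∈ N2 A {v}, w x < ∑ x ∈ N1 A {v}, w x

@[simp] lemma mem_P (A : V → V → Prop) (C : Finset V) (x : V) : x ∈ P A C ↔ ∃ c ∈ C, A c x := by
  simp [P]

lemma mem_N1 (A : V → V → Prop) (S : Finset V) (x : V) :
    x ∈ N1 A S ↔ (∃ c ∈ S, A c x) ∧ x ∉ S := by simp [N1]

lemma mem_N2 (A : V → V → Prop) (S : Finset V) (x : V) :
    x ∈ N2 A S ↔ (∃ c ∈ N1 A S, A c x) ∧ x ∉ S ∧ x ∉ N1 A S := by simp [N2]

theorem prune (A : V → V → Prop) (w : V → ℝ) (hw : ∀ x, 0 ≤ w x) (hbad : Bad A w)
    (hmin : ∀ A' : V → V → Prop, (∀ u v, A' u v → A u v) → Bad A' w → ∀ u v, A u v → A' u v)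
    (S : Finset V) (hS : (N1 A S).Nonempty) :
    ∑ x ∈ N2 A S, w x < ∑ x ∈ N1 A S, w x := by
  let f : Finset V → ℝ := fun C => ∑ x ∈ C, w x - ∑ x ∈ P A C \ (S ∪ C), w x
  have key : ∀ C ⊆ N1 A S, (∀ D ⊆ N1 A S, f D ≤ f C) → C = N1 A S := by
    intro C hC hmax
    let A' : V → V → Prop := fun u v => A u v ∧ ¬ (u ∈ S ∧ v ∈ N1 A S ∧ v ∉ C)
    have hb : Bad A' w := by
      intro u
      by_cases hu : u ∈ S
      · obtain ⟨M1, hM1⟩ : ∃ M1 : Finset V, ∀ x, x ∈ M1 ↔ (A u x ∧ x ≠ u) ∧ x ∈ N1 A S ∧ x ∉ C :=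
          ⟨univ.filter fun x => (A u x ∧ x ≠ u) ∧ x ∈ N1 A S ∧ x ∉ C, fun x => by
            rw [mem_filter]; exact and_iff_right (mem_univ _)⟩
        obtain ⟨X, hX⟩ : ∃ X : Finset V, ∀ x, x ∈ X ↔
            x ∈ P A M1 ∧ x ∉ S ∧ x ∉ C ∧ x ∉ P A C ∧ x ∉ M1 :=
          ⟨univ.filter fun x => x ∈ P A M1 ∧ x ∉ S ∧ x ∉ C ∧ x ∉ P A C ∧ x ∉ M1, fun x => by
            rw [mem_filter]; exact and_iff_right (mem_univ _)⟩
        obtain ⟨Y, hY⟩ : ∃ Y : Finset V, ∀ x, x ∈ Y ↔ x ∈ M1 ∧ x ∈ P A C :=
          ⟨univ.filter fun x => x ∈ M1 ∧ x ∈ P A C, fun x => by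
            rw [mem_filter]; exact and_iff_right (mem_univ _)⟩
        have hA1 : ∀ x, x ∈ N1 A {u} ↔ A u x ∧ x ≠ u := fun x => by simp [mem_N1 A {u}]
        have hA2 : ∀ x, x ∈ N1 A' {u} ↔ (A u x ∧ ¬ (x ∈ N1 A S ∧ x ∉ C)) ∧ x ≠ u := fun x => by
          rw [mem_N1]
          simp only [mem_singleton, exists_eq_left, A', hu, true_and]
        have h1 : f (C ∪ M1) ≤ f C := hmax _ (by
          intro x hx
          rcases mem_union.mp hx with h | h
          · exact hC h
          · exact ((hM1 x).mp h).2.1)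
        have d1 : Disjoint C M1 := by
          rw [disjoint_left]; intro x hx hx'; exact ((hM1 x).mp hx').2.2 hx
        have e1 : P A (C ∪ M1) \ (S ∪ (C ∪ M1)) ∪ Y = (P A C \ (S ∪ C)) ∪ X := by
          ext x
          have hxS : x ∈ M1 → x ∉ S := fun h => ((mem_N1 A S x).mp ((hM1 x).mp h).2.1).2
          have hxC : x ∈ M1 → x ∉ C := fun h => ((hM1 x).mp h).2.2
          have hP : x ∈ P A (C ∪ M1) ↔ x ∈ P A C ∨ x ∈ P A M1 := by
            simp only [mem_P, mem_union]
            constructor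
            · rintro ⟨c, hc | hc, h⟩
              · exact Or.inl ⟨c, hc, h⟩
              · exact Or.inr ⟨c, hc, h⟩
            · rintro (⟨c, hc, h⟩ | ⟨c, hc, h⟩)
              · exact ⟨c, Or.inl hc, h⟩
              · exact ⟨c, Or.inr hc, h⟩
          simp only [hX, hY, mem_union, mem_sdiff, hP]
          generalize (x ∈ M1) = a at *
          generalize (x ∈ S) = b at *
          generalize (x ∈ C) = c at *
          generalize (x ∈ P A C) = d at *
          generalize (x ∈ P A M1) = e at *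
          clear * - hxS hxC
          tauto
        have d2 : Disjoint (P A (C ∪ M1) \ (S ∪ (C ∪ M1))) Y := by
          rw [disjoint_left]; intro x hx hx'
          exact (mem_sdiff.mp hx).2 (mem_union_right _ (mem_union_right _ ((hY x).mp hx').1))
        have d3 : Disjoint (P A C \ (S ∪ C)) X := by
          rw [disjoint_left]; intro x hx hx'
          exact ((hX x).mp hx').2.2.2.1 (mem_sdiff.mp hx).1
        have s1 := congrArg (fun T => ∑ x ∈ T, w x) e1
        simp only [sum_union d2, sum_union d3] at s1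
        have h2 : ∑ x ∈ M1, w x + ∑ x ∈ Y, w x ≤ ∑ x ∈ X, w x := by
          simp only [f, sum_union d1] at h1; linarith
        have e2 : N1 A {u} = N1 A' {u} ∪ M1 := by
          ext x
          rw [mem_union, hM1, hA1, hA2]
          generalize (x ∈ N1 A S ∧ x ∉ C) = a
          generalize (A u x) = b
          generalize (x ≠ u) = c
          clear * -
          tauto
        have d4 : Disjoint (N1 A' {u}) M1 := by
          rw [disjoint_left]; intro x hx hx'
          exact ((hA2 x).mp hx).1.2 ((hM1 x).mp hx').2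
        have hN1' : ∀ c ∈ N1 A' {u}, c ∈ S ∨ c ∈ C := by
          intro c hc
          rw [hA2] at hc
          by_contra hcon
          rw [not_or] at hcon
          exact hc.1.2 ⟨(mem_N1 A S c).mpr ⟨⟨u, hu, hc.1.1⟩, hcon.1⟩, hcon.2⟩
        have hin : ∀ x ∈ N2 A' {u}, x ∈ S ∨ x ∈ C ∨ x ∈ P A C := by
          intro x hx
          obtain ⟨⟨c, hc, hcx⟩, -, -⟩ := (mem_N2 _ _ _).mp hx
          rcases hN1' c hc with h | h
          · by_contra hcon
            rw [not_or, not_or] at hcon
            exact hcx.2 ⟨h, (mem_N1 A S x).mpr ⟨⟨c, h, hcx.1⟩, hcon.1⟩, hcon.2.1⟩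
          · exact Or.inr (Or.inr ((mem_P _ _ _).mpr ⟨c, h, hcx.1⟩))
        have d5 : Disjoint (N2 A' {u}) X := by
          rw [disjoint_left]; intro x hx hx'
          obtain ⟨-, q1, q2, q3, -⟩ := (hX x).mp hx'
          rcases hin x hx with h | h | h
          · exact q1 h
          · exact q2 h
          · exact q3 h
        have sub : N2 A' {u} ∪ X ⊆ N2 A {u} ∪ Y := by
          intro x hx
          rcases mem_union.mp hx with hx | hx
          · have h3 := hin x hx
            obtain ⟨⟨c, hc, hcx⟩, hx1, hx2⟩ := (mem_N2 _ _ _).mp hx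
            by_cases hm : x ∈ M1
            · refine mem_union_right _ ((hY x).mpr ⟨hm, ?_⟩)
              have hxS : x ∉ S := ((mem_N1 A S x).mp ((hM1 x).mp hm).2.1).2
              have hxC : x ∉ C := ((hM1 x).mp hm).2.2
              exact (h3.resolve_left hxS).resolve_left hxC
            · refine mem_union_left _ ((mem_N2 _ _ _).mpr ⟨⟨c, ?_, hcx.1⟩, hx1, ?_⟩)
              · rw [e2]; exact mem_union_left _ hc
              · rw [e2, mem_union]; exact fun h => h.elim hx2 hm
          · obtain ⟨hp, hxS, hxC, -, hxM⟩ := (hX x).mp hx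
            obtain ⟨c, hc, hcx⟩ := (mem_P _ _ _).mp hp
            refine mem_union_left _ ((mem_N2 _ _ _).mpr ⟨⟨c, ?_, hcx⟩, ?_, ?_⟩)
            · rw [e2]; exact mem_union_right _ hc
            · rw [mem_singleton]; rintro rfl; exact hxS hu
            · rw [e2, mem_union]
              rintro (h | h)
              · rcases hN1' x h with h | h
                · exact hxS h
                · exact hxC h
              · exact hxM h
        have h4 := sum_le_sum_of_subset_of_nonneg (f := w) sub (fun x _ _ => hw x)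
        rw [sum_union d5] at h4
        have h5 : ∑ x ∈ N2 A {u} ∪ Y, w x ≤ ∑ x ∈ N2 A {u}, w x + ∑ x ∈ Y, w x := by
          have := sum_union_inter (s₁ := N2 A {u}) (s₂ := Y) (f := w)
          have h0 : 0 ≤ ∑ x ∈ N2 A {u} ∩ Y, w x := sum_nonneg fun x _ => hw x
          linarith
        have h6 := hbad u
        rw [e2, sum_union d4] at h6
        linarith
      · have e2 : N1 A' {u} = N1 A {u} := by
          ext x
          rw [mem_N1, mem_N1]
          simp only [mem_singleton, exists_eq_left, A', hu, false_and, not_false_eq_true, and_true]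
        have sub : N2 A' {u} ⊆ N2 A {u} := by
          intro x hx
          obtain ⟨⟨c, hc, hcx⟩, hx1, hx2⟩ := (mem_N2 _ _ _).mp hx
          rw [e2] at hc hx2
          exact (mem_N2 _ _ _).mpr ⟨⟨c, hc, hcx.1⟩, hx1, hx2⟩
        have h4 := sum_le_sum_of_subset_of_nonneg (f := w) sub (fun x _ _ => hw x)
        have h6 := hbad u
        rw [e2]; linarith
    apply Subset.antisymm hC
    intro x hx
    obtain ⟨⟨u, hu, hux⟩, -⟩ := (mem_N1 A S x).mp hx
    have := hmin A' (fun _ _ h => h.1) hb u x hux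
    by_contra hxC
    exact this.2 ⟨hu, hx, hxC⟩
  obtain ⟨C, hC, hmax⟩ := exists_max_image (N1 A S).powerset f ⟨∅, empty_mem_powerset _⟩
  have hCe := key C (mem_powerset.mp hC) fun D hD => hmax D (mem_powerset.mpr hD)
  subst hCe
  have h0 : f ∅ = 0 := by simp [f, P]
  by_contra hc
  have h1 : f (N1 A S) ≤ 0 := by
    have : f (N1 A S) = ∑ x ∈ N1 A S, w x - ∑ x ∈ N2 A S, w x := rfl
    linarith [not_lt.mp hc]
  have := key ∅ (empty_subset _) fun D hD => by
    have := hmax D (mem_powerset.mpr hD); linarith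
  exact hS.ne_empty this.symm

end Crest.Agent.R57
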