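import Crest.Agent.R57.Prune

set_option autoImplicit false

open Finset

namespace Crest.Agent.R57

open Classical

variable {V : Type*} [Fintype V]

/-- a weighted oriented counterexample contains a pruned one -/
theorem exists_pruned (A : V → V → Prop) (w : V → ℝ) (hw : ∀ x, 0 ≤ w x) (hbad : Bad A w) :
    ∃ A' : V → V → Prop, (∀ u v, A' u v → A u v) ∧ Bad A' w ∧
      (∀ A'' : V → V → Prop, (∀ u v, A'' u v → A' u v) → Bad A'' w → ∀ u v, A' u v → A'' u v) ∧
      ∀ S : Finset V, (N1 A' S).Nonempty → ∑ x ∈ N2 A' S, w x < ∑ x ∈ N1 A' S, w x := by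
  let c : (V → V → Prop) → ℕ := fun B => (univ.filter fun p : V × V => B p.1 p.2).card
  have hex : ∃ n, ∃ B : V → V → Prop, ((∀ u v, B u v → A u v) ∧ Bad B w) ∧ c B = n :=
    ⟨_, A, ⟨fun _ _ h => h, hbad⟩, rfl⟩
  obtain ⟨B, ⟨hBA, hB⟩, hc⟩ := Nat.find_spec hex
  have hmin : ∀ A'' : V → V → Prop, (∀ u v, A'' u v → B u v) → Bad A'' w →
      ∀ u v, B u v → A'' u v := by
    intro A'' h1 h2 u v huv
    have h3 : c B ≤ c A'' := hc ▸ Nat.find_min' hex ⟨A'', ⟨fun u v h => hBA u v (h1 u v h), h2⟩, rfl⟩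
    have h4 : (univ.filter fun p : V × V => A'' p.1 p.2) = univ.filter fun p : V × V => B p.1 p.2 :=
      eq_of_subset_of_card_le (fun p hp => mem_filter.mpr ⟨mem_univ _, h1 _ _ (mem_filter.mp hp).2⟩) h3
    have h5 : (u, v) ∈ univ.filter fun p : V × V => B p.1 p.2 := mem_filter.mpr ⟨mem_univ _, huv⟩
    rw [← h4] at h5
    exact (mem_filter.mp h5).2
  exact ⟨B, hBA, hB, hmin, prune B w hw hB hmin⟩

/-- the statement of row 57 from the non-existence of unweighted counterexamples -/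
theorem reduce (G : V → V → Prop) (hloop : ∀ v, ¬ G v v) (h : ¬ Bad G (fun _ => (1 : ℝ))) :
    ∃ v : V, Set.ncard {u | G v u} ≤
      Set.ncard {w | w ≠ v ∧ ¬ G v w ∧ ∃ u, G v u ∧ G u w} := by
  unfold Bad at h
  push Not at h
  obtain ⟨v, hv⟩ := h
  refine ⟨v, ?_⟩
  have e1 : {u | G v u} = (N1 G {v} : Set V) := by
    ext x
    simp only [Set.mem_setOf_eq, mem_coe, mem_N1, mem_singleton, exists_eq_left]
    exact ⟨fun h => ⟨h, fun e => hloop v (e ▸ h)⟩, fun h => h.1⟩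
  have m1 : ∀ x, x ∈ N1 G {v} ↔ G v x := fun x => by
    rw [← mem_coe, ← e1]; rfl
  have e2 : {w | w ≠ v ∧ ¬ G v w ∧ ∃ u, G v u ∧ G u w} = (N2 G {v} : Set V) := by
    ext x
    simp only [Set.mem_setOf_eq, mem_coe, mem_N2, mem_singleton, m1]
    tauto
  rw [e1, e2, Set.ncard_coe_finset, Set.ncard_coe_finset]
  simpa using hv

end Crest.Agent.R57
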